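import Vale.Agent.P144Z.A5.Alg

/-!
Block A5, analytic part: the maximum principle for matrix polynomials, with an abstract bound `N`
of the evaluations at all fields that satisfy the constraints.
-/

namespace Vale.Agent.P144Z.A5

open Finset Matrix Polynomial

section opn

variable {n : Type} [Fintype n] [DecidableEq n]

theorem opn_nonneg (A : Matrix n n ℂ) : 0 ≤ opn A := norm_nonneg _

theorem opn_zero : opn (0 : Matrix n n ℂ) = 0 := by simp [opn]

theorem opn_add (A B : Matrix n n ℂ) : opn (A + B) ≤ opn A + opn B := by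
  unfold opn; rw [map_add]; exact norm_add_le _ _

theorem opn_csmul (c : ℂ) (A : Matrix n n ℂ) : opn (c • A) = ‖c‖ * opn A := by
  unfold opn; rw [map_smul, norm_smul]

theorem opn_rsmul (c : ℝ) (A : Matrix n n ℂ) : opn (c • A) = |c| * opn A := by
  rw [← Complex.coe_smul, opn_csmul, Complex.norm_real, Real.norm_eq_abs]

theorem opn_sum {ι : Type*} (s : Finset ι) (A : ι → Matrix n n ℂ) :
    opn (∑ i ∈ s, A i) ≤ ∑ i ∈ s, opn (A i) := by
  unfold opn; rw [map_sum]; exact norm_sum_le _ _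

/-- The Schwarz lemma for matrix polynomials. -/
theorem schwarz (s : Finset ℕ) (M : ℕ → Matrix n n ℂ) {m : ℕ} (hm : ∀ k < m, M k = 0) {ρ N : ℝ}
    (hρ : 0 < ρ) (hρ1 : ρ ≤ 1)
    (hN : ∀ t : ℂ, ‖t‖ = ρ⁻¹ → opn (∑ k ∈ s, t ^ k • M k) ≤ N) :
    opn (∑ k ∈ s, M k) ≤ ρ ^ m * N := by
  let h : ℂ → (EuclideanSpace ℂ n →L[ℂ] EuclideanSpace ℂ n) := fun t =>
    ∑ k ∈ s, t ^ (k - m) • Matrix.toEuclideanCLM (n := n) (𝕜 := ℂ) (M k)
  have hd : Differentiable ℂ h := by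
    refine Differentiable.fun_sum fun k _ => ?_
    exact (differentiable_pow _).smul_const _
  have hR : 0 < ρ⁻¹ := inv_pos.2 hρ
  have h1 : ‖h 1‖ ≤ ρ ^ m * N := by
    refine Complex.norm_le_of_forall_mem_frontier_norm_le (U := Metric.ball 0 ρ⁻¹)
      Metric.isBounded_ball hd.diffContOnCl (fun t ht => ?_) ?_
    · rw [frontier_ball _ hR.ne', mem_sphere_zero_iff_norm] at ht
      have e : t ^ m • h t
          = Matrix.toEuclideanCLM (n := n) (𝕜 := ℂ) (∑ k ∈ s, t ^ k • M k) := by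
        rw [map_sum, Finset.smul_sum]
        refine Finset.sum_congr rfl fun k _ => ?_
        by_cases hk : k < m
        · rw [hm k hk, smul_zero, map_zero]
          ext v : 1
          simp
        · rw [smul_smul, ← pow_add, map_smul, Nat.add_sub_cancel' (not_lt.1 hk)]
      have e2 : (ρ⁻¹) ^ m * ‖h t‖ ≤ N := by
        have := hN t ht
        unfold opn at this
        rwa [← e, norm_smul, norm_pow, ht] at this
      calc ‖h t‖ = ρ ^ m * ((ρ⁻¹) ^ m * ‖h t‖) := by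
            rw [← mul_assoc, ← mul_pow, mul_inv_cancel₀ hρ.ne', one_pow, one_mul]
        _ ≤ ρ ^ m * N := mul_le_mul_of_nonneg_left e2 (pow_nonneg hρ.le _)
    · rw [closure_ball _ hR.ne', mem_closedBall_zero_iff, norm_one]
      exact one_le_inv_iff₀.2 ⟨hρ, hρ1⟩
  unfold opn
  rw [map_sum]
  simpa [h] using h1

end opn

variable {S : Type} [Fintype S] [DecidableEq S]

omit [Fintype S] [DecidableEq S] in
theorem ev_psi (r : Rep S) (δ : S → ℝ) : r.ev (psi δ) = r.Ψ δ :=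
  ExteriorAlgebra.lift_ι_apply _ _ _ _

omit [Fintype S] [DecidableEq S] in
theorem Psi_swap (r : Rep S) (a b : S → ℝ) : r.Ψ a * r.Ψ b + r.Ψ b * r.Ψ a = 0 := by
  rw [← ev_psi, ← ev_psi, ← map_mul, ← map_mul, ← map_add, psi_swap, neg_add_cancel, map_zero]

variable {ι : Type} [Fintype ι]

/-- The field with complex weights. -/
noncomputable def rtP (r : Rep S) (L : ι → (S → ℝ) →ₗ[ℝ] (S → ℝ)) (c : ι → ℂ) :
    (S → ℝ) →ₗ[ℝ] Matrix r.n r.n ℂ := ∑ i, c i • (r.Ψ ∘ₗ L i)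

omit [Fintype S] [DecidableEq S] in
theorem rt_Psi (r : Rep S) (L : ι → (S → ℝ) →ₗ[ℝ] (S → ℝ)) (c : ι → ℂ) (δ : S → ℝ) :
    rtP r L c δ = ∑ i, c i • r.Ψ (L i δ) := by
  simp only [rtP, LinearMap.coe_sum, Finset.sum_apply, LinearMap.smul_apply, LinearMap.comp_apply]

omit [Fintype S] [DecidableEq S] in
theorem rt_sq (r : Rep S) (L : ι → (S → ℝ) →ₗ[ℝ] (S → ℝ)) (c : ι → ℂ) (δ : S → ℝ) :
    rtP r L c δ * rtP r L c δ = 0 := by
  rw [rt_Psi, Finset.sum_mul_sum]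
  set x := ∑ i, ∑ j, c i • r.Ψ (L i δ) * c j • r.Ψ (L j δ) with hx
  have h2 : x + x = 0 := by
    nth_rewrite 2 [hx]
    rw [Finset.sum_comm, hx, ← Finset.sum_add_distrib]
    refine Finset.sum_eq_zero fun i _ => ?_
    rw [← Finset.sum_add_distrib]
    refine Finset.sum_eq_zero fun j _ => ?_
    rw [smul_mul_smul_comm, smul_mul_smul_comm, mul_comm (c j), ← smul_add, Psi_swap, smul_zero]
  have h3 : (2 : ℂ) • x = 0 := by rw [two_smul]; exact h2
  exact (smul_eq_zero.1 h3).resolve_left two_ne_zero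

/-- Evaluation at the field with complex weights. -/
noncomputable def rtE (r : Rep S) (L : ι → (S → ℝ) →ₗ[ℝ] (S → ℝ)) (c : ι → ℂ) :
    Gr S →ₐ[ℝ] Matrix r.n r.n ℂ := ExteriorAlgebra.lift ℝ ⟨rtP r L c, rt_sq r L c⟩

omit [Fintype S] [DecidableEq S] in
theorem rtE_psi (r : Rep S) (L : ι → (S → ℝ) →ₗ[ℝ] (S → ℝ)) (c : ι → ℂ) (δ : S → ℝ) :
    rtE r L c (psi δ) = ∑ i, c i • r.Ψ (L i δ) :=
  (ExteriorAlgebra.lift_ι_apply _ _ _ _).trans (rt_Psi r L c δ)

omit [Fintype S] [DecidableEq S] in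
/-- For real weights the field is a substitution. -/
theorem rt_ev_real (r : Rep S) (L : ι → (S → ℝ) →ₗ[ℝ] (S → ℝ)) (c : ι → ℂ)
    (L' : (S → ℝ) →ₗ[ℝ] (S → ℝ)) (h : ∀ δ, ∑ i, c i • r.Ψ (L i δ) = r.Ψ (L' δ)) (F : Gr S) :
    rtE r L c F = r.ev (ExteriorAlgebra.map L' F) := by
  have : rtE r L c = r.ev.comp (ExteriorAlgebra.map L') := by
    refine ExteriorAlgebra.hom_ext (LinearMap.ext fun δ => ?_)
    change rtE r L c (psi δ) = r.ev (ExteriorAlgebra.map L' (psi δ))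
    rw [rtE_psi, map_psi, ev_psi, h]
  exact DFunLike.congr_fun this F

omit [Fintype S] [DecidableEq S] in
/-- The evaluation is a polynomial in `t`. -/
theorem rt_ev_poly (r : Rep S) (L : ι → (S → ℝ) →ₗ[ℝ] (S → ℝ)) (w : ι → ℕ) (t : ℂ) (F : Gr S) :
    rtE r L (fun i => t ^ w i) F
      = ∑ k ∈ range ((wsub L w F).natDegree + 1), t ^ k • r.ev ((wsub L w F).coeff k) := by
  let E : Polynomial (Gr S) →ₐ[ℝ] Matrix r.n r.n ℂ :=
    Polynomial.eval₂AlgHom r.ev (t • (1 : Matrix r.n r.n ℂ))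
      fun a => (Commute.one_right _).smul_right t
  have hE : ∀ k a, E (monomial k a) = t ^ k • r.ev a := by
    intro k a
    change eval₂ _ _ _ = _
    rw [eval₂_monomial, _root_.smul_pow, one_pow, mul_smul_comm, mul_one]
    rfl
  have : rtE r L (fun i => t ^ w i) = E.comp (wsub L w) := by
    refine ExteriorAlgebra.hom_ext (LinearMap.ext fun δ => ?_)
    change rtE r L (fun i => t ^ w i) (psi δ) = E (wsub L w (psi δ))
    rw [rtE_psi, wsub_psi, map_sum]
    exact Finset.sum_congr rfl fun i _ => by rw [hE, ev_psi]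
  rw [this, AlgHom.comp_apply]
  conv_lhs => rw [(wsub L w F).as_sum_range, map_sum]
  exact Finset.sum_congr rfl fun k _ => hE _ _

omit [Fintype S] [DecidableEq S] in
theorem rt_le {𝒞 : Set ((S → ℝ) × ℝ)} {F : Gr S} {N : ℝ}
    (hN : ∀ r : Rep S, r.In 𝒞 → opn (r.ev F) ≤ N) (r : Rep S)
    (L : ι → (S → ℝ) →ₗ[ℝ] (S → ℝ)) (w : ι → ℕ)
    {ρ : ℝ} (hr : ∀ p ∈ 𝒞, ∑ i, opn (r.Ψ (L i p.1)) / ρ ^ w i ≤ p.2) {t : ℂ} (ht : ‖t‖ = ρ⁻¹) :
    opn (rtE r L (fun i => t ^ w i) F) ≤ N := by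
  refine hN ⟨r.n, rtP r L fun i => t ^ w i, rt_sq r L _⟩ fun p hp => ?_
  refine le_trans ?_ (hr p hp)
  change opn (rtP r L (fun i => t ^ w i) p.1) ≤ _
  rw [rt_Psi]
  refine (opn_sum _ _).trans (le_of_eq ?_)
  refine Finset.sum_congr rfl fun i _ => ?_
  rw [opn_csmul, norm_pow, ht, inv_pow, div_eq_inv_mul]

omit [Fintype S] [DecidableEq S] in
/-- The Schwarz lemma for the weighted substitution. -/
theorem core {𝒞 : Set ((S → ℝ) × ℝ)} {F : Gr S} {N : ℝ}
    (hN : ∀ r : Rep S, r.In 𝒞 → opn (r.ev F) ≤ N) (L : ι → (S → ℝ) →ₗ[ℝ] (S → ℝ)) (w : ι → ℕ)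
    (r : Rep S) {m : ℕ} (hm : ∀ k < m, r.ev ((wsub L w F).coeff k) = 0) {ρ : ℝ} (hρ : 0 < ρ)
    (hρ1 : ρ ≤ 1) (hr : ∀ p ∈ 𝒞, ∑ i, opn (r.Ψ (L i p.1)) / ρ ^ w i ≤ p.2) :
    opn (r.ev (ExteriorAlgebra.map (∑ i, L i) F)) ≤ ρ ^ m * N := by
  have h := schwarz (range ((wsub L w F).natDegree + 1)) (fun k => r.ev ((wsub L w F).coeff k))
    hm hρ hρ1 (N := N) fun t ht => by
      rw [← rt_ev_poly]
      exact rt_le hN r L w hr ht
  have e := rt_ev_poly r L w 1 F
  rw [rt_ev_real r L _ (∑ i, L i) (fun δ => by simp)] at e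
  simp only [one_pow, one_smul] at e
  rw [e]
  exact h

omit [Fintype S] [DecidableEq S] in
/-- The term of weight zero for two pieces of weights zero and one. -/
theorem coeff_zero (r : Rep S) (L₀ L₁ : (S → ℝ) →ₗ[ℝ] (S → ℝ)) (F : Gr S) :
    r.ev ((wsub ![L₀, L₁] ![0, 1] F).coeff 0) = r.ev (ExteriorAlgebra.map L₀ F) := by
  have e := rt_ev_poly r ![L₀, L₁] ![0, 1] 0 F
  rw [rt_ev_real r _ _ L₀ (fun δ => by simp), Finset.sum_range_succ'] at e
  simpa using e.symm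

omit [Fintype S] [DecidableEq S] in
theorem affine_le {n : Type} [Fintype n] [DecidableEq n] (G₀ G₁ : Matrix n n ℂ) {Λ N : ℝ}
    (hΛ : 1 ≤ Λ) (h0 : opn G₀ ≤ N) (h1 : opn (G₀ + Λ⁻¹ • G₁) ≤ N) :
    opn (G₀ + (1 : ℝ) • G₁) ≤ 2 * Λ * N := by
  have hN : 0 ≤ N := (opn_nonneg _).trans h0
  have e : G₀ + (1 : ℝ) • G₁ = (1 - Λ) • G₀ + Λ • (G₀ + Λ⁻¹ • G₁) := by
    rw [smul_add, smul_smul, mul_inv_cancel₀ (by linarith), ← add_assoc, ← add_smul]
    simp
  rw [e]
  refine (opn_add _ _).trans ?_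
  rw [opn_rsmul, opn_rsmul, abs_of_nonpos (by linarith), abs_of_nonneg (by linarith)]
  have a1 := mul_le_mul_of_nonneg_left h0 (show 0 ≤ -(1 - Λ) by linarith)
  have a2 := mul_le_mul_of_nonneg_left h1 (show 0 ≤ Λ by linarith)
  nlinarith

omit [Fintype S] [DecidableEq S] in
theorem map_in {𝒞 : Set ((S → ℝ) × ℝ)} {F : Gr S} {N : ℝ}
    (hN : ∀ r : Rep S, r.In 𝒞 → opn (r.ev F) ≤ N) (r : Rep S) (L : (S → ℝ) →ₗ[ℝ] (S → ℝ))
    (hr : ∀ p ∈ 𝒞, opn (r.Ψ (L p.1)) ≤ p.2) : opn (r.ev (ExteriorAlgebra.map L F)) ≤ N := by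
  have := core hN ![L] ![0] r (m := 0) (fun k hk => absurd hk (Nat.not_lt_zero k)) one_pos le_rfl
    (by simpa using hr)
  simpa using this

omit [DecidableEq S] in
theorem affine {𝒞 : Set ((S → ℝ) × ℝ)} {F : Gr S} {N : ℝ}
    (hN : ∀ r : Rep S, r.In 𝒞 → opn (r.ev F) ≤ N) (f d : ι → S → ℝ) (r : Rep S) {Λ : ℝ}
    (hΛ : 1 ≤ Λ) (hr : ∀ p ∈ 𝒞, opn (r.Ψ (p.1 - ∑ i, (p.1 ⬝ᵥ f i) • d i)) +
      ∑ i, |p.1 ⬝ᵥ f i| * opn (r.Ψ (d i)) / Λ ≤ p.2) :
    opn (r.ev F) ≤ (2 * Λ) ^ Fintype.card ι * N := by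
  classical
  let P : ι → (S → ℝ) →ₗ[ℝ] (S → ℝ) := fun i => (pair (f i)).smulRight (d i)
  let Ls : (ι → ℝ) → (S → ℝ) →ₗ[ℝ] (S → ℝ) := fun s => LinearMap.id - ∑ i, P i + ∑ i, s i • P i
  have hup : ∀ (s : ι → ℝ) (i : ι) (x : ℝ),
      Ls (Function.update s i x) = Ls (Function.update s i 0) + x • P i := by
    intro s i x
    simp only [Ls]
    rw [add_assoc]
    congr 1
    rw [← Finset.add_sum_erase _ _ (mem_univ i), ← Finset.add_sum_erase _ _ (mem_univ i),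
      Function.update_self, Function.update_self, zero_smul, zero_add, add_comm]
    congr 1
    refine Finset.sum_congr rfl fun j hj => ?_
    rw [Function.update_of_ne (ne_of_mem_erase hj), Function.update_of_ne (ne_of_mem_erase hj)]
  have key : ∀ (I : Finset ι) (s : ι → ℝ), (∀ i ∈ I, s i = 1) → (∀ i ∉ I, |s i| ≤ Λ⁻¹) →
      opn (r.ev (ExteriorAlgebra.map (Ls s) F)) ≤ (2 * Λ) ^ I.card * N := by
    intro I
    induction I using Finset.induction_on with
    | empty =>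
      intro s _ hs
      rw [card_empty, pow_zero, one_mul]
      refine map_in hN r _ fun p hp => le_trans ?_ (hr p hp)
      have e : Ls s p.1 = (p.1 - ∑ i, (p.1 ⬝ᵥ f i) • d i) + ∑ i, (s i * (p.1 ⬝ᵥ f i)) • d i := by
        simp only [Ls, P, LinearMap.add_apply, LinearMap.sub_apply, LinearMap.id_apply,
          LinearMap.coe_sum, Finset.sum_apply, LinearMap.smul_apply, LinearMap.smulRight_apply,
          smul_smul]
        rfl
      rw [e, map_add, map_sum]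
      refine (opn_add _ _).trans (add_le_add le_rfl ((opn_sum _ _).trans
        (Finset.sum_le_sum fun i _ => ?_)))
      rw [map_smul, opn_rsmul, abs_mul, div_eq_inv_mul, mul_assoc]
      exact mul_le_mul_of_nonneg_right (hs i (notMem_empty i))
        (mul_nonneg (abs_nonneg _) (opn_nonneg _))
    | insert i I hi ih =>
      intro s h1 h2
      have hb : ∀ x : ℝ, |x| ≤ Λ⁻¹ →
          opn (r.ev (ExteriorAlgebra.map (Ls (Function.update s i x)) F))
            ≤ (2 * Λ) ^ I.card * N := by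
        intro x hx
        refine ih _ (fun j hj => ?_) fun j hj => ?_
        · rw [Function.update_of_ne (fun h : j = i => hi (h ▸ hj))]
          exact h1 j (mem_insert_of_mem hj)
        · by_cases hji : j = i
          · rw [hji, Function.update_self]; exact hx
          · rw [Function.update_of_ne hji]
            exact h2 j (by simp [hji, hj])
      have hΛ0 : 0 < Λ⁻¹ := inv_pos.2 (by linarith)
      have b0 := hb 0 (by simpa using hΛ0.le)
      have b1 := hb Λ⁻¹ (abs_of_pos hΛ0).le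
      rw [hup, map_rank_one, map_add, map_smul] at b1
      have es : s = Function.update s i 1 := by
        rw [← h1 i (mem_insert_self i I), Function.update_eq_self]
      rw [es, hup, map_rank_one, map_add, map_smul, card_insert_of_notMem hi, pow_succ',
        mul_assoc]
      exact affine_le _ _ hΛ b0 b1
  have := key univ (fun _ => 1) (fun _ _ => rfl) (fun i hi => absurd (mem_univ i) hi)
  have e : Ls (fun _ => 1) = LinearMap.id := by simp [Ls]
  rwa [e, ExteriorAlgebra.map_id, AlgHom.id_apply, card_univ] at this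

omit [DecidableEq S] in
theorem affine_small {𝒞 : Set ((S → ℝ) × ℝ)} {F : Gr S} {N : ℝ}
    (hN : ∀ r : Rep S, r.In 𝒞 → opn (r.ev F) ≤ N) (f d : S → ℝ) (L₀ : (S → ℝ) →ₗ[ℝ] (S → ℝ))
    (h0 : ExteriorAlgebra.map L₀ F = 0)
    (h1 : ExteriorAlgebra.map (L₀ + (pair f).smulRight d) F = 0)
    (r : Rep S) {Λ ρ : ℝ} (hΛ : 1 ≤ Λ) (hρ : 0 < ρ) (hρ1 : ρ ≤ 1)
    (hr : ∀ p ∈ 𝒞, opn (r.Ψ (L₀ p.1)) + opn (r.Ψ (p.1 - L₀ p.1 - (p.1 ⬝ᵥ f) • d)) / ρ +
      |p.1 ⬝ᵥ f| * opn (r.Ψ d) / Λ ≤ p.2) :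
    opn (r.ev F) ≤ 2 * Λ * (ρ * N) := by
  set P : (S → ℝ) →ₗ[ℝ] (S → ℝ) := (pair f).smulRight d with hP
  have hz : psi d * ExteriorAlgebra.map L₀ (del f F) = 0 := by
    have := map_rank_one L₀ f d 1 F
    rw [one_smul, h1, h0, zero_add, one_smul] at this
    exact this.symm
  have hb : ∀ x : ℝ, |x| ≤ Λ⁻¹ →
      opn (r.ev (ExteriorAlgebra.map ((LinearMap.id - P) + x • P) F)) ≤ ρ * N := by
    intro x hx
    have := core hN ![L₀ + x • P, LinearMap.id - L₀ - P] ![0, 1] r (m := 1) (fun k hk => by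
      obtain rfl : k = 0 := by omega
      rw [coeff_zero, hP, map_rank_one, h0, hz, smul_zero, add_zero, map_zero]) hρ hρ1
      (fun p hp => by
        refine le_trans ?_ (hr p hp)
        simp only [Fin.sum_univ_two, Matrix.cons_val_zero, Matrix.cons_val_one, pow_zero, div_one,
          pow_one, LinearMap.add_apply, LinearMap.smul_apply, LinearMap.sub_apply,
          LinearMap.id_apply, hP, LinearMap.smulRight_apply, map_add, smul_smul]
        have e : pair f p.1 = p.1 ⬝ᵥ f := rfl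
        rw [e, add_right_comm]
        refine add_le_add ((opn_add _ _).trans (add_le_add le_rfl ?_)) le_rfl
        rw [map_smul, opn_rsmul, abs_mul, div_eq_inv_mul, mul_assoc]
        exact mul_le_mul_of_nonneg_right hx (mul_nonneg (abs_nonneg _) (opn_nonneg _)))
    rw [pow_one, Fin.sum_univ_two] at this
    simp only [Matrix.cons_val_zero, Matrix.cons_val_one] at this
    have e : LinearMap.id - P + x • P = L₀ + x • P + (LinearMap.id - L₀ - P) := by abel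
    rw [e]
    exact this
  have hΛ0 : 0 < Λ⁻¹ := inv_pos.2 (by linarith)
  have b0 := hb 0 (by simpa using hΛ0.le)
  have b1 := hb Λ⁻¹ (abs_of_pos hΛ0).le
  rw [zero_smul, add_zero] at b0
  rw [hP, map_rank_one, map_add, map_smul] at b1
  have := affine_le _ _ hΛ b0 b1
  rw [← map_smul, ← map_add, ← map_rank_one, one_smul, sub_add_cancel, ExteriorAlgebra.map_id,
    AlgHom.id_apply] at this
  exact this

omit [Fintype S] [DecidableEq S] in
theorem small {𝒞 : Set ((S → ℝ) × ℝ)} {F : Gr S} {N : ℝ}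
    (hN : ∀ r : Rep S, r.In 𝒞 → opn (r.ev F) ≤ N) (L₀ : (S → ℝ) →ₗ[ℝ] (S → ℝ))
    (h0 : ExteriorAlgebra.map L₀ F = 0)
    (h1 : ExteriorAlgebra.map (L₀ + L₀ - LinearMap.id) F = F)
    (r : Rep S) {ρ : ℝ} (hρ : 0 < ρ) (hρ1 : ρ ≤ 1)
    (hr : ∀ p ∈ 𝒞, opn (r.Ψ (L₀ p.1)) + opn (r.Ψ (p.1 - L₀ p.1)) / ρ ≤ p.2) :
    opn (r.ev F) ≤ ρ ^ 2 * N := by
  set L : Fin 2 → (S → ℝ) →ₗ[ℝ] (S → ℝ) := ![L₀, LinearMap.id - L₀] with hL
  set w : Fin 2 → ℕ := ![0, 1] with hw
  set s := range ((wsub L w F).natDegree + 1) with hs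
  set M : ℕ → Matrix r.n r.n ℂ := fun k => r.ev ((wsub L w F).coeff k) with hM
  have hr' : ∀ p ∈ 𝒞, ∑ i, opn (r.Ψ (L i p.1)) / ρ ^ w i ≤ p.2 := by
    intro p hp
    simpa [hL, hw] using hr p hp
  have hg : ∀ t : ℂ, ‖t‖ = ρ⁻¹ → opn (∑ k ∈ s, t ^ k • M k) ≤ N := by
    intro t ht
    rw [← rt_ev_poly]
    exact rt_le hN r L w hr' ht
  have hev : ∀ t : ℂ, ∑ k ∈ s, t ^ k • (if Even k then M k else 0)
      = (1 / 2 : ℂ) • (∑ k ∈ s, t ^ k • M k + ∑ k ∈ s, (-t) ^ k • M k) := by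
    intro t
    rw [← Finset.sum_add_distrib, Finset.smul_sum]
    refine Finset.sum_congr rfl fun k _ => ?_
    rw [← add_smul, smul_smul]
    split_ifs with hk
    · rw [hk.neg_pow]
      congr 1
      ring
    · rw [(Nat.not_even_iff_odd.1 hk).neg_pow, add_neg_cancel, mul_zero, zero_smul, smul_zero]
  have h := schwarz s (fun k => if Even k then M k else 0) (m := 2) (fun k hk => by
    obtain rfl | rfl : k = 0 ∨ k = 1 := by omega
    · simp only [hM, hL, hw]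
      rw [coeff_zero, h0, map_zero, ite_self]
    · simp) hρ hρ1 (N := N) fun t ht => by
      rw [hev, opn_csmul]
      have a1 := hg t ht
      have a2 := hg (-t) (by rw [norm_neg, ht])
      have a3 := opn_add (∑ k ∈ s, t ^ k • M k) (∑ k ∈ s, (-t) ^ k • M k)
      have a4 : ‖(1 / 2 : ℂ)‖ = 1 / 2 := by simp
      rw [a4]
      linarith
  have e1 := rt_ev_poly r L w 1 F
  rw [rt_ev_real r L _ LinearMap.id (fun δ => by simp [hL]), ExteriorAlgebra.map_id,
    AlgHom.id_apply] at e1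
  have e2 := rt_ev_poly r L w (-1) F
  rw [rt_ev_real r L _ (L₀ + L₀ - LinearMap.id) (fun δ => by
    simp only [hL, hw, Fin.sum_univ_two, Matrix.cons_val_zero, Matrix.cons_val_one, pow_zero,
      pow_one, one_smul, neg_smul, LinearMap.sub_apply, LinearMap.add_apply, LinearMap.id_apply,
      map_sub, map_add]
    abel), h1] at e2
  have e3 := hev 1
  rw [← e1, ← e2, ← two_smul ℂ, smul_smul] at e3
  simp only [one_pow, one_smul, one_div, ne_eq, OfNat.ofNat_ne_zero, not_false_eq_true,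
    inv_mul_cancel₀] at e3
  rw [← e3]
  exact h

end Vale.Agent.P144Z.A5
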