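import Vale.Agent.P144Z.A3.Main
import Vale.Agent.P144Z.A5.An

/-!
Block A5: the Schwarz lemma for weighted substitutions, affine dependence on nilpotent directions,
and the vanishing of the terms of low weight.
-/

namespace Vale.Agent.P144Z

open Finset Matrix

section A5
variable {S : Type} [Fintype S] [DecidableEq S] {𝒞 : Set ((S → ℝ) × ℝ)} {T : Set S}

/-- Schwarz lemma: the pieces `L i` have size `ρ ^ w i`, and the terms of weight below `m`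
vanish. -/
theorem opn_wsub (h : Adm 𝒞 T) {ι : Type} [Fintype ι] (L : ι → (S → ℝ) →ₗ[ℝ] (S → ℝ)) (w : ι → ℕ)
    (hL : ∑ i, L i = LinearMap.id) {F : Gr S} (hF : F ∈ loc T) {m : ℕ}
    (hm : ∀ k < m, (wsub L w F).coeff k = 0) (r : Rep S) {ρ : ℝ} (hρ : 0 < ρ) (hρ1 : ρ ≤ 1 / 2)
    (hr : ∀ p ∈ 𝒞, ∑ i, opn (r.Ψ (L i p.1)) / ρ ^ w i ≤ p.2) :
    opn (r.ev F) ≤ 2 * ρ ^ m * nrm 𝒞 T F := by
  have := A5.core (fun r hr => le_nrm h hF r hr) L w r (m := m)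
    (fun k hk => by rw [hm k hk, map_zero]) hρ (by linarith) hr
  rw [hL, ExteriorAlgebra.map_id, AlgHom.id_apply] at this
  have h0 : 0 ≤ ρ ^ m * nrm 𝒞 T F := mul_nonneg (pow_nonneg hρ.le _) (nrm_nonneg F)
  linarith

/-- Affine dependence on nilpotent directions. -/
theorem opn_affine (h : Adm 𝒞 T) {ι : Type} [Fintype ι] (f d : ι → S → ℝ) {F : Gr S}
    (hF : F ∈ loc T) (r : Rep S) {Λ : ℝ} (hΛ : 1 ≤ Λ)
    (hr : ∀ p ∈ 𝒞, opn (r.Ψ (p.1 - ∑ i, (p.1 ⬝ᵥ f i) • d i)) +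
      ∑ i, |p.1 ⬝ᵥ f i| * opn (r.Ψ (d i)) / Λ ≤ p.2) :
    opn (r.ev F) ≤ (2 * Λ) ^ Fintype.card ι * nrm 𝒞 T F :=
  A5.affine (fun r hr => le_nrm h hF r hr) f d r hΛ hr

/-- One nilpotent direction of order one, the rest small. -/
theorem opn_affine_small (h : Adm 𝒞 T) (f d : S → ℝ) (L₀ : (S → ℝ) →ₗ[ℝ] (S → ℝ)) {F : Gr S}
    (hF : F ∈ loc T) (h0 : ExteriorAlgebra.map L₀ F = 0)
    (h1 : ExteriorAlgebra.map (L₀ + (pair f).smulRight d) F = 0)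
    (r : Rep S) {Λ ρ : ℝ} (hΛ : 1 ≤ Λ) (hρ : 0 < ρ) (hρ1 : ρ ≤ 1 / 2)
    (hr : ∀ p ∈ 𝒞, opn (r.Ψ (L₀ p.1)) + opn (r.Ψ (p.1 - L₀ p.1 - (p.1 ⬝ᵥ f) • d)) / ρ +
      |p.1 ⬝ᵥ f| * opn (r.Ψ d) / Λ ≤ p.2) :
    opn (r.ev F) ≤ 4 * Λ * ρ * nrm 𝒞 T F := by
  have := A5.affine_small (fun r hr => le_nrm h hF r hr) f d L₀ h0 h1 r hΛ hρ (by linarith) hr
  have h0 : 0 ≤ Λ * (ρ * nrm 𝒞 T F) :=
    mul_nonneg (by linarith) (mul_nonneg hρ.le (nrm_nonneg F))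
  linarith

/-- All fields except those of `L₀` are small, and `F` has no terms of order zero or one. -/
theorem opn_small (h : Adm 𝒞 T) (L₀ : (S → ℝ) →ₗ[ℝ] (S → ℝ)) {F : Gr S} (hF : F ∈ loc T)
    (h0 : ExteriorAlgebra.map L₀ F = 0)
    (h1 : ExteriorAlgebra.map (L₀ + L₀ - LinearMap.id) F = F)
    (r : Rep S) {ρ : ℝ} (hρ : 0 < ρ) (hρ1 : ρ ≤ 1 / 2)
    (hr : ∀ p ∈ 𝒞, opn (r.Ψ (L₀ p.1)) + opn (r.Ψ (p.1 - L₀ p.1)) / ρ ≤ p.2) :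
    opn (r.ev F) ≤ 2 * ρ ^ 2 * nrm 𝒞 T F := by
  have := A5.small (fun r hr => le_nrm h hF r hr) L₀ h0 h1 r hρ (by linarith) hr
  have h0 : 0 ≤ ρ ^ 2 * nrm 𝒞 T F := mul_nonneg (pow_nonneg hρ.le _) (nrm_nonneg F)
  linarith

/-- Vanishing of the terms of low weight: two modes of weight one, four of weight three, the rest
of weight five. -/
theorem wsub_low (f₀ d₀ : Fin 2 → S → ℝ) (f₁ d₁ : Fin 2 × Fin 2 → S → ℝ) {F : Gr S}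
    (hev : F ∈ evenS S) (h0 : aug F = 0) (h1 : beta F (f₀ 0) (f₀ 1) = 0)
    (h2 : ∀ a b, beta F (f₀ a) (f₁ b) = 0) :
    ∀ k < 6, (wsub ![∑ a, (pair (f₀ a)).smulRight (d₀ a), ∑ b, (pair (f₁ b)).smulRight (d₁ b),
      LinearMap.id - ∑ a, (pair (f₀ a)).smulRight (d₀ a) - ∑ b, (pair (f₁ b)).smulRight (d₁ b)]
      ![1, 3, 5] F).coeff k = 0 :=
  Polynomial.X_pow_dvd_iff.1 (A5.low6 f₀ d₀ f₁ d₁ _ hev h0 h1 h2)

/-- The same with two modes of weight one and the rest of weight three. -/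
theorem wsub_low' (f₀ d₀ : Fin 2 → S → ℝ) {F : Gr S} (hev : F ∈ evenS S) (h0 : aug F = 0)
    (h1 : beta F (f₀ 0) (f₀ 1) = 0) :
    ∀ k < 4, (wsub ![∑ a, (pair (f₀ a)).smulRight (d₀ a),
      LinearMap.id - ∑ a, (pair (f₀ a)).smulRight (d₀ a)] ![1, 3] F).coeff k = 0 :=
  Polynomial.X_pow_dvd_iff.1 (A5.low4 f₀ d₀ _ hev h0 h1)
end A5

end Vale.Agent.P144Z
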