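import Vale.Agent.P144Z.Gr

/-!
Block A5, algebraic part: rank-one changes of the fields, and the terms of low weight.
-/

namespace Vale.Agent.P144Z.A5

open Finset Matrix Polynomial

variable {S : Type} [Fintype S] [DecidableEq S]

omit [DecidableEq S] in
theorem del_psi_mul (g δ : S → ℝ) (F : Gr S) :
    del g (psi δ * F) = (δ ⬝ᵥ g) • F - psi δ * del g F :=
  CliffordAlgebra.contractLeft_ι_mul _ _ _

omit [DecidableEq S] in
theorem del_algebraMap (g : S → ℝ) (c : ℝ) : del g (algebraMap ℝ (Gr S) c) = 0 :=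
  CliffordAlgebra.contractLeft_algebraMap _ _ _

omit [Fintype S] [DecidableEq S] in
theorem aug_psi (δ : S → ℝ) : aug (psi δ) = 0 := by
  simp [aug, psi, ExteriorAlgebra.algebraMapInv]

omit [Fintype S] [DecidableEq S] in
theorem psi_swap (a b : S → ℝ) : psi a * psi b = -(psi b * psi a) :=
  eq_neg_of_add_eq_zero_left (ExteriorAlgebra.ι_add_mul_swap a b)

omit [Fintype S] [DecidableEq S] in
theorem psi_sq (a : S → ℝ) : psi a * psi a = 0 := ExteriorAlgebra.ι_sq_zero a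

omit [Fintype S] [DecidableEq S] in
@[elab_as_elim]
theorem ind {P : Gr S → Prop} (h0 : ∀ c : ℝ, P (algebraMap ℝ (Gr S) c))
    (add : ∀ x y, P x → P y → P (x + y)) (mul : ∀ x δ, P x → P (psi δ * x)) (F : Gr S) : P F :=
  CliffordAlgebra.left_induction (P := P) _ h0 add mul F

omit [DecidableEq S] in
/-- A rank-one change of the fields. -/
theorem rank_one {B : Type*} [Ring B] [Algebra ℝ B] (Φ Φ' : Gr S →ₐ[ℝ] B) (f : S → ℝ) (c : B)
    (h : ∀ δ, Φ' (psi δ) = Φ (psi δ) + (δ ⬝ᵥ f) • c) (hc : c * c = 0)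
    (hac : ∀ δ, Φ (psi δ) * c = -(c * Φ (psi δ))) (F : Gr S) :
    Φ' F = Φ F + c * Φ (del f F) := by
  induction F using ind with
  | h0 a => rw [del_algebraMap, map_zero, mul_zero, add_zero, AlgHom.commutes, AlgHom.commutes]
  | add x y hx hy => simp only [map_add, hx, hy, mul_add]; abel
  | mul x δ hx =>
    rw [map_mul, map_mul, hx, h, del_psi_mul, map_sub, map_smul, map_mul, mul_sub, add_mul,
      mul_add, mul_add, smul_mul_assoc, smul_mul_assoc, ← mul_assoc c c, hc, zero_mul, smul_zero,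
      ← mul_assoc (Φ (psi δ)) c, hac, neg_mul, mul_smul_comm, mul_assoc]
    abel

omit [Fintype S] [DecidableEq S] in
theorem map_psi {S' : Type} (L : (S → ℝ) →ₗ[ℝ] (S' → ℝ)) (δ : S → ℝ) :
    ExteriorAlgebra.map L (psi δ) = psi (L δ) := ExteriorAlgebra.map_apply_ι L δ

omit [DecidableEq S] in
theorem map_rank_one (L : (S → ℝ) →ₗ[ℝ] (S → ℝ)) (f d : S → ℝ) (s : ℝ) (F : Gr S) :
    ExteriorAlgebra.map (L + s • (pair f).smulRight d) F
      = ExteriorAlgebra.map L F + s • (psi d * ExteriorAlgebra.map L (del f F)) := by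
  rw [← smul_mul_assoc]
  refine rank_one _ _ f (s • psi d) (fun δ => ?_) ?_ (fun δ => ?_) F
  · rw [map_psi, map_psi]
    simp only [LinearMap.add_apply, LinearMap.smul_apply, LinearMap.smulRight_apply, psi, map_add,
      map_smul]
    rw [smul_comm]
    rfl
  · rw [smul_mul_assoc, mul_smul_comm, psi_sq, smul_zero, smul_zero]
  · rw [map_psi, smul_mul_assoc, mul_smul_comm, psi_swap, smul_neg]

omit [DecidableEq S] in
theorem involute_del (g : S → ℝ) (F : Gr S) :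
    CliffordAlgebra.involute (del g F) = -del g (CliffordAlgebra.involute F) := by
  have hp : ∀ δ : S → ℝ, CliffordAlgebra.involute (psi δ) = -psi δ := fun δ =>
    CliffordAlgebra.involute_ι δ
  induction F using ind with
  | h0 a => rw [AlgHom.commutes, del_algebraMap, map_zero, neg_zero]
  | add x y hx hy => simp only [map_add, hx, hy]; abel
  | mul x δ hx =>
    rw [del_psi_mul, map_sub, map_smul, map_mul, map_mul, hx, hp, neg_mul, neg_mul, map_neg,
      del_psi_mul, mul_neg, neg_neg, neg_neg]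

omit [Fintype S] [DecidableEq S] in
theorem aug_involute (F : Gr S) : aug (CliffordAlgebra.involute F) = aug F := by
  have hp : ∀ δ : S → ℝ, CliffordAlgebra.involute (psi δ) = -psi δ := fun δ =>
    CliffordAlgebra.involute_ι δ
  induction F using ind with
  | h0 a => rw [AlgHom.commutes]
  | add x y hx hy => simp only [map_add, hx, hy]
  | mul x δ _ => rw [map_mul, hp, map_mul, map_mul, map_neg, aug_psi, neg_zero, zero_mul, zero_mul]

omit [Fintype S] [DecidableEq S] in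
theorem aug_odd {F : Gr S} (h : CliffordAlgebra.involute F = -F) : aug F = 0 := by
  have := aug_involute F
  rw [h, map_neg] at this
  linarith

omit [DecidableEq S] in
theorem aug_del_even {F : Gr S} (hev : F ∈ evenS S) (g : S → ℝ) : aug (del g F) = 0 :=
  aug_odd (by rw [involute_del, CliffordAlgebra.involute_eq_of_mem_even hev])

omit [DecidableEq S] in
theorem aug_del3_even {F : Gr S} (hev : F ∈ evenS S) (g g' g'' : S → ℝ) :
    aug (del g'' (del g' (del g F))) = 0 :=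
  aug_odd (by
    rw [involute_del, involute_del, involute_del, CliffordAlgebra.involute_eq_of_mem_even hev]
    simp only [map_neg, neg_neg])

section wsub

variable {ι : Type} [Fintype ι]

omit [Fintype S] [DecidableEq S] in
theorem wsub_psi (L : ι → (S → ℝ) →ₗ[ℝ] (S → ℝ)) (w : ι → ℕ) (δ : S → ℝ) :
    wsub L w (psi δ) = ∑ i, monomial (w i) (psi (L i δ)) := by
  unfold wsub psi
  rw [ExteriorAlgebra.lift_ι_apply]
  simp only [LinearMap.coe_sum, Finset.sum_apply, LinearMap.comp_apply,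
    LinearMap.restrictScalars_apply]

omit [Fintype S] [DecidableEq S] in
theorem mono_swap (k l : ℕ) (a b : S → ℝ) : monomial k (psi a) * monomial l (psi b)
    = -(monomial l (psi b) * monomial k (psi a)) := by
  rw [monomial_mul_monomial, monomial_mul_monomial, psi_swap, map_neg, add_comm]

omit [DecidableEq S] in
/-- Removing a rank-one piece of weight one. -/
theorem wsub_rank_one (L L' : ι → (S → ℝ) →ₗ[ℝ] (S → ℝ)) (w : ι → ℕ) (f d : S → ℝ) (k : ℕ)
    (h : ∀ δ, ∑ i, monomial (w i) (psi (L' i δ))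
      = ∑ i, monomial (w i) (psi (L i δ)) + (δ ⬝ᵥ f) • monomial k (psi d)) (F : Gr S) :
    wsub L' w F = wsub L w F + monomial k (psi d) * wsub L w (del f F) := by
  refine rank_one _ _ f _ (fun δ => ?_) ?_ (fun δ => ?_) F
  · rw [wsub_psi, wsub_psi, h]
  · rw [monomial_mul_monomial, psi_sq, map_zero]
  · rw [wsub_psi, Finset.sum_mul, Finset.mul_sum, ← Finset.sum_neg_distrib]
    exact Finset.sum_congr rfl fun i _ => mono_swap _ _ _ _

end wsub

section dvd

variable (Φ : Gr S →ₐ[ℝ] Polynomial (Gr S))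

omit [Fintype S] [DecidableEq S] in
theorem dvd_mul_dvd {a b : ℕ} {p q : Polynomial (Gr S)} (hp : X ^ a ∣ p) (hq : X ^ b ∣ q) :
    X ^ (a + b) ∣ p * q := by
  obtain ⟨p', rfl⟩ := hp
  obtain ⟨q', rfl⟩ := hq
  refine ⟨p' * q', ?_⟩
  rw [pow_add, mul_assoc, ← mul_assoc p', ← X_pow_mul, mul_assoc, mul_assoc]

omit [Fintype S] [DecidableEq S] in
theorem dvd_mono {a k : ℕ} (h : a ≤ k) (x : Gr S) : X ^ a ∣ monomial k x := by
  rw [X_pow_dvd_iff]
  intro d hd
  rw [coeff_monomial, if_neg (by omega)]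

omit [Fintype S] [DecidableEq S] in
theorem dvd_one {a : ℕ} (h : ∀ δ, X ^ a ∣ Φ (psi δ)) (G : Gr S) :
    X ^ a ∣ Φ G - algebraMap ℝ _ (aug G) := by
  induction G using ind with
  | h0 c => rw [AlgHom.commutes, AlgHom.commutes]; simp
  | add x y hx hy =>
    have := dvd_add hx hy
    rw [map_add, map_add, map_add]
    convert this using 1
    abel
  | mul x δ _ =>
    rw [map_mul, map_mul, aug_psi, zero_mul, map_zero, sub_zero]
    exact (h δ).mul_right _

omit [Fintype S] [DecidableEq S] in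
theorem dvd_even {a : ℕ} (h : ∀ δ, X ^ a ∣ Φ (psi δ)) {G : Gr S} (hG : G ∈ evenS S) :
    X ^ (a + a) ∣ Φ G - algebraMap ℝ _ (aug G) := by
  have hG' : G ∈ CliffordAlgebra.evenOdd (0 : QuadraticForm ℝ (S → ℝ)) 0 := hG
  clear hG
  induction G, hG' using CliffordAlgebra.even_induction with
  | algebraMap c => rw [AlgHom.commutes, AlgHom.commutes]; simp
  | add x y _ _ hx hy =>
    have := dvd_add hx hy
    rw [map_add, map_add, map_add]
    convert this using 1
    abel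
  | ι_mul_ι_mul m₁ m₂ x _ _ =>
    change X ^ (a + a) ∣ Φ (psi m₁ * psi m₂ * x) - algebraMap ℝ _ (aug (psi m₁ * psi m₂ * x))
    rw [map_mul Φ, map_mul Φ, map_mul aug, map_mul aug, aug_psi, zero_mul, zero_mul, map_zero,
      sub_zero]
    exact (dvd_mul_dvd (h m₁) (h m₂)).mul_right _

omit [DecidableEq S] in
theorem dvd_lin {κ : Type} [Fintype κ] (f d : κ → S → ℝ)
    (h : ∀ δ, X ^ 5 ∣ Φ (psi δ) - ∑ b, (δ ⬝ᵥ f b) • monomial 3 (psi (d b))) (G : Gr S) :
    X ^ 5 ∣ Φ G - algebraMap ℝ _ (aug G) - ∑ b, aug (del (f b) G) • monomial 3 (psi (d b)) := by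
  have h3 : ∀ δ, X ^ 3 ∣ Φ (psi δ) := by
    intro δ
    have h1 : X ^ 3 ∣ Φ (psi δ) - ∑ b, (δ ⬝ᵥ f b) • monomial 3 (psi (d b)) :=
      (pow_dvd_pow X (by norm_num)).trans (h δ)
    have h2 : X ^ 3 ∣ ∑ b, (δ ⬝ᵥ f b) • monomial 3 (psi (d b)) :=
      Finset.dvd_sum fun b _ => by rw [smul_monomial]; exact dvd_mono le_rfl _
    simpa using dvd_add h1 h2
  induction G using ind with
  | h0 c => rw [AlgHom.commutes, AlgHom.commutes]; simp [del_algebraMap]
  | add x y hx hy =>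
    have := dvd_add hx hy
    simp only [map_add, add_smul, Finset.sum_add_distrib]
    convert this using 1
    abel
  | mul x δ _ =>
    have h1 : X ^ 5 ∣ Φ (psi δ) * (Φ x - algebraMap ℝ _ (aug x)) :=
      (pow_dvd_pow X (by norm_num)).trans (dvd_mul_dvd (h3 δ) (dvd_one Φ h3 x))
    have h2 := (h δ).mul_right (algebraMap ℝ _ (aug x))
    have := dvd_add h1 h2
    simp only [del_psi_mul, map_mul, map_sub, map_smul, aug_psi, zero_mul, map_zero, sub_zero]
    convert this using 1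
    rw [mul_sub, sub_mul, sub_add_sub_cancel, Finset.sum_mul]
    congr 1
    refine Finset.sum_congr rfl fun b _ => ?_
    rw [← Algebra.commutes, ← Algebra.smul_def, smul_smul, smul_eq_mul, mul_comm]

end dvd

omit [DecidableEq S] in
theorem split2 {n : ℕ} (f₀ d₀ : Fin 2 → S → ℝ) (L : Fin n → (S → ℝ) →ₗ[ℝ] (S → ℝ))
    (w : Fin n → ℕ) (F : Gr S) :
    wsub (Matrix.vecCons (∑ a, (pair (f₀ a)).smulRight (d₀ a)) L) (Matrix.vecCons 1 w) F
      = wsub L w F + monomial 1 (psi (d₀ 1)) * wsub L w (del (f₀ 1) F)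
        + monomial 1 (psi (d₀ 0)) * (wsub L w (del (f₀ 0) F)
          + monomial 1 (psi (d₀ 1)) * wsub L w (del (f₀ 1) (del (f₀ 0) F))) := by
  have e0 : ∀ G, wsub (Matrix.vecCons 0 L) (Matrix.vecCons 1 w) G = wsub L w G := by
    intro G
    congr 1
    refine ExteriorAlgebra.hom_ext (LinearMap.ext fun δ => ?_)
    change wsub _ _ (psi δ) = wsub _ _ (psi δ)
    rw [wsub_psi, wsub_psi, Fin.sum_univ_succ]
    simp [psi]
  have e1 : ∀ G, wsub (Matrix.vecCons ((pair (f₀ 1)).smulRight (d₀ 1)) L) (Matrix.vecCons 1 w) G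
      = wsub L w G + monomial 1 (psi (d₀ 1)) * wsub L w (del (f₀ 1) G) := by
    intro G
    rw [wsub_rank_one (Matrix.vecCons 0 L) _ _ (f₀ 1) (d₀ 1) 1 (fun δ => ?_), e0, e0]
    rw [Fin.sum_univ_succ, Fin.sum_univ_succ]
    simp only [Matrix.cons_val_zero, Matrix.cons_val_succ, LinearMap.smulRight_apply,
      LinearMap.zero_apply, psi, map_zero, map_smul, zero_add, smul_monomial]
    rw [add_comm]
    rfl
  rw [wsub_rank_one (Matrix.vecCons ((pair (f₀ 1)).smulRight (d₀ 1)) L) _ _ (f₀ 0) (d₀ 0) 1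
    (fun δ => ?_), e1, e1]
  rw [Fin.sum_univ_succ, Fin.sum_univ_succ (n := n), Fin.sum_univ_two]
  simp only [Matrix.cons_val_zero, Matrix.cons_val_succ, LinearMap.smulRight_apply,
    LinearMap.add_apply, psi, map_add, map_smul, smul_monomial]
  have : pair (f₀ 0) δ = δ ⬝ᵥ f₀ 0 := rfl
  rw [this]
  abel

omit [Fintype S] [DecidableEq S] in
theorem comb {n : ℕ} {c₀ c₁ p q₀ q₁ r : Polynomial (Gr S)} (h₀ : X ^ 1 ∣ c₀) (h₁ : X ^ 1 ∣ c₁)
    (hp : X ^ (n + 1) ∣ p) (hq₀ : X ^ n ∣ q₀) (hq₁ : X ^ n ∣ q₁) (hr : X ^ n ∣ r) :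
    X ^ (n + 1) ∣ p + c₁ * q₁ + c₀ * (q₀ + c₁ * r) := by
  have e1 := dvd_mul_dvd h₁ hq₁
  have e2 : X ^ n ∣ c₁ * r := (pow_dvd_pow X (by omega)).trans (dvd_mul_dvd h₁ hr)
  have e3 := dvd_mul_dvd h₀ (dvd_add hq₀ e2)
  rw [add_comm 1 n] at e1 e3
  exact dvd_add (dvd_add hp e1) e3

omit [DecidableEq S] in
theorem low6 (f₀ d₀ : Fin 2 → S → ℝ) (f₁ d₁ : Fin 2 × Fin 2 → S → ℝ) (L₂ : (S → ℝ) →ₗ[ℝ] (S → ℝ))
    {F : Gr S} (hev : F ∈ evenS S) (h0 : aug F = 0) (h1 : beta F (f₀ 0) (f₀ 1) = 0)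
    (h2 : ∀ a b, beta F (f₀ a) (f₁ b) = 0) :
    X ^ 6 ∣ wsub ![∑ a, (pair (f₀ a)).smulRight (d₀ a), ∑ b, (pair (f₁ b)).smulRight (d₁ b), L₂]
      ![1, 3, 5] F := by
  rw [split2]
  set Φ := wsub ![∑ b, (pair (f₁ b)).smulRight (d₁ b), L₂] ![3, 5] with hΦ
  have h5 : ∀ δ, X ^ 5 ∣ Φ (psi δ) - ∑ b, (δ ⬝ᵥ f₁ b) • monomial 3 (psi (d₁ b)) := by
    intro δ
    rw [hΦ, wsub_psi, Fin.sum_univ_two]
    simp only [Matrix.cons_val_zero, Matrix.cons_val_one, LinearMap.coe_sum, Finset.sum_apply,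
      LinearMap.smulRight_apply, psi, map_sum, map_smul, smul_monomial]
    have : ∀ b, pair (f₁ b) δ = δ ⬝ᵥ f₁ b := fun _ => rfl
    simp only [this, add_sub_cancel_left]
    exact dvd_mono le_rfl _
  have h3 : ∀ δ, X ^ 3 ∣ Φ (psi δ) := by
    intro δ
    rw [hΦ, wsub_psi, Fin.sum_univ_two]
    exact dvd_add (dvd_mono le_rfl _) (dvd_mono (by simp) _)
  have a0 : X ^ 6 ∣ Φ F := by simpa [h0] using dvd_even Φ h3 hev
  have a1 : ∀ a, X ^ 5 ∣ Φ (del (f₀ a) F) := by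
    intro a
    have := dvd_lin Φ f₁ d₁ h5 (del (f₀ a) F)
    have e : ∀ b, aug (del (f₁ b) (del (f₀ a) F)) = 0 := h2 a
    simpa [aug_del_even hev, e] using this
  have a2 : X ^ 5 ∣ Φ (del (f₀ 1) (del (f₀ 0) F)) := by
    have := dvd_lin Φ f₁ d₁ h5 (del (f₀ 1) (del (f₀ 0) F))
    have e : aug (del (f₀ 1) (del (f₀ 0) F)) = 0 := h1
    simpa [aug_del3_even hev, e] using this
  have m1 : ∀ x : Gr S, X ^ 1 ∣ monomial 1 x := dvd_mono le_rfl
  exact comb (n := 5) (m1 _) (m1 _) a0 (a1 0) (a1 1) a2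

omit [DecidableEq S] in
theorem low4 (f₀ d₀ : Fin 2 → S → ℝ) (L₂ : (S → ℝ) →ₗ[ℝ] (S → ℝ))
    {F : Gr S} (hev : F ∈ evenS S) (h0 : aug F = 0) (h1 : beta F (f₀ 0) (f₀ 1) = 0) :
    X ^ 4 ∣ wsub ![∑ a, (pair (f₀ a)).smulRight (d₀ a), L₂] ![1, 3] F := by
  rw [split2]
  set Φ := wsub ![L₂] ![3] with hΦ
  have h3 : ∀ δ, X ^ 3 ∣ Φ (psi δ) := by
    intro δ
    rw [hΦ, wsub_psi, Fin.sum_univ_one]
    exact dvd_mono le_rfl _
  have a0 : X ^ 4 ∣ Φ F := by
    have : X ^ (3 + 3) ∣ Φ F := by simpa [h0] using dvd_even Φ h3 hev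
    exact (pow_dvd_pow X (by norm_num)).trans this
  have a1 : ∀ a, X ^ 3 ∣ Φ (del (f₀ a) F) := by
    intro a
    simpa [aug_del_even hev] using dvd_one Φ h3 (del (f₀ a) F)
  have a2 : X ^ 3 ∣ Φ (del (f₀ 1) (del (f₀ 0) F)) := by
    have e : aug (del (f₀ 1) (del (f₀ 0) F)) = 0 := h1
    simpa [e] using dvd_one Φ h3 (del (f₀ 1) (del (f₀ 0) F))
  have m1 : ∀ x : Gr S, X ^ 1 ∣ monomial 1 x := dvd_mono le_rfl
  exact comb (n := 3) (m1 _) (m1 _) a0 (a1 0) (a1 1) a2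

end Vale.Agent.P144Z.A5
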